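import Mathlib

/-!
P033: a row with vanishing periodic autocorrelations is far from every product sign pattern.
-/

namespace Vale.Agent.P033

open Finset

theorem sum_range_blocks (m r : ℕ) (F : ℕ → ℤ) :
    ∑ j ∈ range (m * r), F j = ∑ k ∈ range r, ∑ i ∈ range m, F (i + m * k) := by
  induction r with
  | zero => simp
  | succ r ih =>
    rw [Nat.mul_succ, sum_range_add, ih, sum_range_succ]
    congr 1
    exact sum_congr rfl fun i _ => by rw [add_comm]

/-- Changing `E` signs changes each periodic autocorrelation by at most `4 E`. -/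
theorem corr_diff (n t : ℕ) (h p : ℕ → ℤ) (hh : ∀ j < n, h j = 1 ∨ h j = -1)
    (hp : ∀ j < n, p j = 1 ∨ p j = -1) :
    |(∑ j ∈ range n, p j * p ((j + t) % n)) - ∑ j ∈ range n, h j * h ((j + t) % n)| ≤
      4 * (((range n).filter fun j => h j ≠ p j).card : ℤ) := by
  rw [← sum_sub_distrib]
  set D := (range n).filter fun j => h j ≠ p j with hD
  have h1 : ∀ j ∈ range n, |p j * p ((j + t) % n) - h j * h ((j + t) % n)| ≤
      2 * (if j ∈ D then 1 else 0) + 2 * (if (j + t) % n ∈ D then 1 else 0) := by
    intro j hj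
    have hjn := mem_range.1 hj
    have hl : (j + t) % n < n := Nat.mod_lt _ (by omega)
    have e1 : j ∈ D ↔ h j ≠ p j := by simp [hD, hjn]
    have e2 : (j + t) % n ∈ D ↔ h ((j + t) % n) ≠ p ((j + t) % n) := by simp [hD, hl]
    rcases hh j hjn with a1 | a1 <;> rcases hp j hjn with a2 | a2 <;>
      rcases hh _ hl with a3 | a3 <;> rcases hp _ hl with a4 | a4 <;>
      simp [e1, e2, a1, a2, a3, a4]
  have h2 : (∑ j ∈ range n, if j ∈ D then (1 : ℤ) else 0) = (D.card : ℤ) := by
    rw [sum_boole, filter_mem_eq_inter, inter_eq_right.2 (filter_subset _ _)]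
  have h3 : (∑ j ∈ range n, if (j + t) % n ∈ D then (1 : ℤ) else 0) ≤ (D.card : ℤ) := by
    rw [sum_boole]
    norm_cast
    refine card_le_card_of_injOn (fun j => (j + t) % n) (fun j hj => (mem_filter.1 hj).2) ?_
    intro x hx y hy hxy
    simp only [coe_filter, mem_range, Set.mem_ofPred_eq] at hx hy
    have := Nat.ModEq.add_right_cancel' t (show x + t ≡ y + t [MOD n] from hxy)
    exact this.eq_of_lt_of_lt hx.1 hy.1
  refine (abs_sum_le_sum_abs _ _).trans ((sum_le_sum h1).trans ?_)
  rw [sum_add_distrib, ← mul_sum, ← mul_sum, h2]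
  linarith

/-- The aperiodic correlations of the block of a nearby product pattern are small. -/
theorem product_distance (m r : ℕ) (h a b : ℕ → ℤ) (hm : 2 ≤ m) (hr : 2 ≤ r)
    (hh : ∀ j < m * r, h j = 1 ∨ h j = -1) (ha : ∀ i < m, a i = 1 ∨ a i = -1)
    (hb : ∀ k < r, b k = 1 ∨ b k = -1)
    (hc : ∀ t, 0 < t → t < m * r → ∑ j ∈ range (m * r), h j * h ((j + t) % (m * r)) = 0)
    (s : ℕ) (hs : 1 ≤ s) (hsm : s < m) :
    |∑ i ∈ range (m - s), a i * a (i + s)| * (r : ℤ) ≤
      8 * (((range (m * r)).filter fun j => h j ≠ a (j % m) * b (j / m)).card : ℤ) := by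
  set p : ℕ → ℤ := fun j => a (j % m) * b (j / m) with hpdef
  set E : ℤ := (((range (m * r)).filter fun j => h j ≠ p j).card : ℤ)
  have hp : ∀ j < m * r, p j = 1 ∨ p j = -1 := by
    intro j hj
    rcases ha (j % m) (Nat.mod_lt _ (by omega)) with e | e <;>
      rcases hb (j / m) (Nat.div_lt_of_lt_mul hj) with e' | e' <;> simp [hpdef, e, e']
  have bound : ∀ t, 0 < t → t < m * r →
      |∑ j ∈ range (m * r), p j * p ((j + t) % (m * r))| ≤ 4 * E := by
    intro t h1 h2
    have := corr_diff (m * r) t h p hh hp
    rwa [hc t h1 h2, sub_zero] at this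
  have pval : ∀ i k, i < m → p (i + m * k) = a i * b k := by
    intro i k hi
    simp [hpdef, Nat.add_mul_mod_self_left, Nat.mod_eq_of_lt hi, Nat.add_mul_div_left _ _
      (show 0 < m by omega), Nat.div_eq_of_lt hi]
  have shift : ∀ i k, i < m → (i + m * k + m) % (m * r) = i + m * ((k + 1) % r) := by
    intro i k hi
    rw [show i + m * k + m = i + m * (k + 1) by ring, Nat.mod_mul, Nat.add_mul_mod_self_left,
      Nat.mod_eq_of_lt hi, Nat.add_mul_div_left _ _ (show 0 < m by omega), Nat.div_eq_of_lt hi,
      Nat.zero_add]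
  set R : ℤ := ∑ k ∈ range r, b k * b ((k + 1) % r)
  have hR : |(m : ℤ) * R| ≤ 4 * E := by
    have hsum : ∑ j ∈ range (m * r), p j * p ((j + m) % (m * r)) = (m : ℤ) * R := by
      rw [sum_range_blocks, mul_sum]
      refine sum_congr rfl fun k hk => ?_
      have : ∀ i ∈ range m,
          p (i + m * k) * p ((i + m * k + m) % (m * r)) = b k * b ((k + 1) % r) := by
        intro i hi
        have hi' := mem_range.1 hi
        rw [pval i k hi', shift i k hi', pval i _ hi']
        rcases ha i hi' with e | e <;> simp [e]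
      rw [sum_congr rfl this, sum_const, card_range, nsmul_eq_mul]
    rw [← hsum]
    exact bound m (by omega) (lt_mul_of_one_lt_right (by omega) (by omega))
  set c : ℤ := ∑ i ∈ range (m - s), a i * a (i + s)
  set c' : ℤ := ∑ i ∈ range s, a (m - s + i) * a i
  have hP : ∑ j ∈ range (m * r), p j * p ((j + s) % (m * r)) = c * r + c' * R := by
    have hins : ∀ k ∈ range r, ∑ i ∈ range m, p (i + m * k) * p ((i + m * k + s) % (m * r)) =
        c + c' * (b k * b ((k + 1) % r)) := by
      intro k hk
      have hk' := mem_range.1 hk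
      have hkm : m * k + m ≤ m * r := by
        rw [← Nat.mul_succ]
        exact Nat.mul_le_mul_left m hk'
      rw [show range m = range ((m - s) + s) by rw [Nat.sub_add_cancel hsm.le], sum_range_add,
        sum_mul]
      congr 1
      · refine sum_congr rfl fun i hi => ?_
        have hi' := mem_range.1 hi
        rw [pval i k (by omega), Nat.mod_eq_of_lt (by omega),
          show i + m * k + s = i + s + m * k by omega, pval _ k (by omega)]
        rcases hb k hk' with e | e <;> simp [e]
      · refine sum_congr rfl fun i hi => ?_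
        have hi' := mem_range.1 hi
        rw [pval _ k (by omega), show m - s + i + m * k + s = i + m * k + m by omega,
          shift i k (by omega), pval i _ (by omega)]
        ring
    rw [sum_range_blocks, sum_congr rfl hins, sum_add_distrib, sum_const, card_range,
      nsmul_eq_mul, ← mul_sum]
    ring
  have hc' : |c'| ≤ (m : ℤ) := by
    refine (abs_sum_le_sum_abs _ _).trans ((sum_le_card_nsmul _ _ 1 ?_).trans ?_)
    · intro i hi
      have hi' := mem_range.1 hi
      rcases ha (m - s + i) (by omega) with e | e <;> rcases ha i (by omega) with e' | e' <;>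
        simp [e, e']
    · simp only [card_range, nsmul_eq_mul, mul_one]
      exact_mod_cast hsm.le
  have hb2 : |c * r + c' * R| ≤ 4 * E := hP ▸ bound s hs (hsm.trans (lt_mul_of_one_lt_right (by omega) (by omega)))
  have hprod : |c' * R| ≤ 4 * E := by
    rw [abs_mul]
    refine le_trans (mul_le_mul_of_nonneg_right hc' (abs_nonneg R)) ?_
    rwa [abs_mul, Nat.abs_cast] at hR
  have : |c * r| ≤ 8 * E := by
    have h3 : |c * r| ≤ |c * r + c' * R| + |c' * R| := by
      have := abs_sub (c * r + c' * R) (c' * R)
      rwa [add_sub_cancel_right] at this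
    linarith
  rwa [abs_mul, Nat.abs_cast] at this

end Vale.Agent.P033
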